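import Vale.Agent.P366.H707.D.EqPos
import Vale.Agent.P366.H208.M.Mix

/-! The equality case under the mixed energy condition. -/

open MeasureTheory Metric Filter Topology Set
open scoped ContDiff ENNReal

noncomputable section
namespace Vale.Agent.P366.KSD

open Vale.Agent.P366 (pd E flux)
open Vale.Agent.P366.H353.N
open Vale.Agent.P366.Kerr (NullCone Psi pt sp indG indK sgn ksL ksG ein nul IsKS FutTimelike DECatL
  IsGraph IsSliceL HasDEC MixDEC IsFut IsGradient schw IsSchwSlice)
open Vale.Agent.P366.KSN (Y dts sg OO)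
open Vale.Agent.P366.KSL

variable {n : ℕ} {C : NullCone n} {l : Fin (n + 1) → E (n + 1) → ℝ} {V : E (n + 1) → ℝ}
  {f lam : E n → ℝ} {D : Stmt.Exterior n} {x y : E n} {ξ : Fin (n + 1) → ℝ}

/-- the interior points -/
theorem near_of_pos (hy : 0 < D.F y) : ∀ᶠ z in 𝓝 y, 0 ≤ D.F z := by
  have h : ContinuousAt D.F y := D.dom.1.continuous.continuousAt
  filter_upwards [h.eventually (lt_mem_nhds hy)] with z hz using hz.le

/-- If the density vanishes in the frame of `ξ` at an interior point, then the divergences of all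
flux fields vanish there. -/
theorem div_zero_of_mix [Fact (3 ≤ n)] (hS : IsSliceL C l V f D) (hL : IsGradient C lam l f D)
    (hξ : IsFut ξ) (hD : MixDEC l V f ξ D) (hy : 0 < D.F y)
    (h0 : ∑ b, ξ b * ∑ i, pd i (Zf l V f b i) y = 0) (b : Fin (n + 1)) :
    ∑ i, pd i (Zf l V f b i) y = 0 := by
  have hK := hS.ks y hy.le
  have hev := near_of_pos hy
  rcases hD.mix y hy with h | ⟨h, h'⟩
  · have hd := dens_eq hS hD.geo hev
    have h1 := data_zero hS hev (hD.dec y hy.le) (X := ξ) (by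
      rw [form_ksL]
      have e : ∑ i : Fin n, ξ i.succ * ξ i.succ = ∑ i : Fin n, ξ i.succ ^ 2 :=
        Finset.sum_congr rfl fun i _ => (sq _).symm
      rw [e]
      linarith) (l_fut hK hξ) (by rw [← hd ξ, h0, neg_zero])
    have h2 := hd (Pi.single b 1)
    rw [Finset.sum_comm] at h2
    have e1 : ∀ b', ∑ d, ein (ksL l V) d b' (pt (f y) y) * (-Nn l V f y d) *
        (Pi.single b 1 : Fin (n + 1) → ℝ) b' = 0 := fun b' => by
      rw [← Finset.sum_mul, h1 b', zero_mul]
    simp only [e1, Finset.sum_const_zero] at h2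
    have e2 : ∑ b', (Pi.single b 1 : Fin (n + 1) → ℝ) b' * ∑ i, pd i (Zf l V f b' i) y =
        ∑ i, pd i (Zf l V f b i) y := by
      simp [Pi.single_apply]
    rw [e2] at h2
    linarith
  · have hk := ksg_of_grad hL hy.le hK
    have s0 : sgn (0 : Fin (n + 1)) = -1 := rfl
    have ss : ∀ i : Fin n, sgn i.succ = 1 := fun i => by simp [sgn, Fin.succ_ne_zero]
    have hfd : DifferentiableAt ℝ f y := (hS.smf y hy.le).differentiableAt (by simp)
    have hG : ∀ a b, Gm l V a b (pt (f y) y) = 0 := by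
      refine Gm_zero_of hk h (X := Fin.cons (α := fun _ => ℝ) 1 fun i => pd i f y)
        (ξ := ξ) ?_ ?_ ?_ hξ.2 hξ.1 ?_
      · simp only [Fin.cons_succ, Fin.cons_zero, one_pow]
        simpa only [Vale.Agent.P366.Bridge.pd_eq hfd] using h'
      · simp
      · rw [Fin.sum_univ_succ]
        simp only [Fin.cons_succ, Fin.cons_zero, mul_one]
        exact tau_pos hS y hy.le
      · rw [Fin.sum_univ_succ]
        simp only [Fin.cons_succ, Fin.cons_zero, s0, ss, one_mul, mul_one]
        have h1 : ∀ b, ξ b * ∑ i, pd i (Zf l V f b i) y = ξ b * Gm l V 0 b (pt (f y) y) -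
            ∑ j : Fin n, pd j f y * Gm l V j.succ b (pt (f y) y) * ξ b := by
          intro b
          rw [div_Z hS.toIsGraph hy.le hk b, mul_sub, ← Finset.sum_mul]
          ring
        simp only [h1, Finset.sum_sub_distrib] at h0
        rw [Finset.sum_comm] at h0
        have h2 : ∑ b, -1 * Gm l V 0 b (pt (f y) y) * ξ b =
            - ∑ b, ξ b * Gm l V 0 b (pt (f y) y) := by
          rw [← Finset.sum_neg_distrib]; exact Finset.sum_congr rfl fun b _ => by ring
        rw [h2]
        linarith only [h0]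
    rw [div_Z hS.toIsGraph hy.le hk b]
    simp only [hG, mul_zero, Finset.sum_const_zero, sub_zero]

/-- Equality in the Penrose inequality: a slice of the Schwarzschild-Tangherlini spacetime. -/
theorem schwarz_mix_le [Fact (3 ≤ n)] (hS : IsSliceL C l V f D) (hL : IsGradient C lam l f D)
    (hξ : IsFut ξ) (hD : MixDEC l V f ξ D) (hAF : D.IsAF) (hT : D.Trapped) {m : ℝ}
    {P : Fin n → ℝ} (hm : D.IsEnergy m) (hP : D.IsMomentum P)
    (hr : ∀ i, ξ 0 * P i = - (ξ i.succ * m))
    (hle : √(m ^ 2 - ∑ i, P i ^ 2) ≤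
      1 / 2 * (SI C.toDat.dt / om n) ^ (((n : ℝ) - 2) / ((n : ℝ) - 1))) :
    ∃ c r₀, IsSchwSlice c r₀ f D :=
  schwarz_pos hS hL (posAt_of_mix hS hξ hD) hAF hT hm hP hξ.2 hξ.1 hr hle
    fun _ hy h0 b => div_zero_of_mix hS hL hξ hD hy h0 b

/-- Equality in the Penrose inequality with the least enclosing area. -/
theorem schwarz_mix [Fact (3 ≤ n)] (hS : IsSliceL C l V f D) (hL : IsGradient C lam l f D)
    (hξ : IsFut ξ) (hD : MixDEC l V f ξ D) (hAF : D.IsAF) (hT : D.Trapped) {m : ℝ}
    {P : Fin n → ℝ} (hm : D.IsEnergy m) (hP : D.IsMomentum P)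
    (hr : ∀ i, ξ 0 * P i = - (ξ i.succ * m))
    (heq : (D.Amin.toReal / Stmt.omega n) ^ (((n : ℝ) - 2) / ((n : ℝ) - 1)) / 2 =
      √(m ^ 2 - ∑ i, P i ^ 2)) :
    ∃ c r₀, IsSchwSlice c r₀ f D :=
  schwarz_mix_le hS hL hξ hD hAF hT hm hP hr (by rw [← heq]; exact (area_all hS).2.2)

end Vale.Agent.P366.KSD
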