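import Vale.Agent.P366.H222.L.EqC

/-! The equality case: the part of the proof which only uses that the divergences of the flux fields
vanish along the slice. -/

open MeasureTheory Metric Filter Topology Set
open scoped ContDiff ENNReal

noncomputable section
namespace Vale.Agent.P366.KSL

open Vale.Agent.P366 (pd E flux)
open Vale.Agent.P366.H353.N
open Vale.Agent.P366.Kerr (NullCone Psi pt sp indG indK sgn ksL ksG ein nul IsKS FutTimelike DECatL
  IsGraph IsSliceL HasDEC IsGradient schw IsSchwSlice)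
open Vale.Agent.P366.KSN (Y dts sg OO)
open Vale.Agent.P366.KSL.Rig (nn lc gv gd)

variable {n : ℕ} {C : NullCone n} {l : Fin (n + 1) → E (n + 1) → ℝ} {V : E (n + 1) → ℝ}
  {f lam : E n → ℝ} {D : Stmt.Exterior n} {c : E n} {k : ℝ} {y : E n}

/-- the differential of `V` over the interior -/
theorem dV_of_div [Fact (3 ≤ n)] (hS : IsSliceL C l V f D) (hL : IsGradient C lam l f D)
    (hH : ∀ x, x ≠ 0 → C.H x = k * ‖x‖ + ∑ i, c i * x i)
    (hZ : ∀ b y, 0 ≤ D.F y → ∑ i, pd i (Zf l V f b i) y = 0) (hy : y ∈ OO C) :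
    gd V f 0 y = 0 ∧
      ∀ i : Fin n, gd V f i.succ y = -((n - 2) * (gv V f y / ‖y - c‖) * nn c i y) := by
  have h3 := Fact.out (p := 3 ≤ n)
  have hn : (3 : ℝ) ≤ (n : ℝ) := by exact_mod_cast h3
  exact Rig.rigL (O := OO C) (KSN.isOpen_OO C) (fun z hz => EqK.OO_ne hH hz)
    (fun z hz => hS.smf z (EqK.OO_mem hS hz)) (fun z hz => (hS.ks z (EqK.OO_mem hS hz)).smV)
    (fun z hz a => EqK.l_OO hS hL hH hz a) (fun z hz => EqK.tau_OO hS hL hH hz) (by linarith)
    (fun b z hz => hZ b z (EqK.OO_mem hS hz)) y hy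

/-- The slice is a slice of the Schwarzschild-Tangherlini spacetime: the null cone is the cone of a
point, the divergences of the flux fields vanish, and, if `P = 0`, the boundary surface is a level
set of the time function on which `V l₀² = 1`. -/
theorem schwarz_of [Fact (3 ≤ n)] (hS : IsSliceL C l V f D) (hL : IsGradient C lam l f D)
    (hAF : D.IsAF) {P : Fin n → ℝ} (hP : D.IsMomentum P)
    (hH : ∀ x, x ≠ 0 → C.H x = k * ‖x‖ + ∑ i, c i * x i)
    (hZ : ∀ b y, 0 ≤ D.F y → ∑ i, pd i (Zf l V f b i) y = 0)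
    (h0 : P = 0 → ∃ u : ℝ, 0 < u ∧ (∀ x, x ≠ 0 → C.U x = u) ∧ ∀ x : E n, ‖x‖ = 1 →
      V (pt (- C.U x) (Y C.H x (C.U x))) * l 0 (pt (- C.U x) (Y C.H x (C.U x))) ^ 2 = 1) :
    ∃ c r₀, IsSchwSlice c r₀ f D := by
  have h3 := Fact.out (p := 3 ≤ n)
  have hk : ∀ y, 0 ≤ D.F y → IsKSg l V (pt (f y) y) := fun y hy =>
    ksg_of_grad hL hy (hS.ks y hy)
  obtain ⟨M, hM⟩ := EqK.const_V (c := c) (f := f) (V := V) (fun z hz => EqK.OO_ne hH hz)
    (fun z hz => hS.smf z (EqK.OO_mem hS hz)) (fun z hz => (hS.ks z (EqK.OO_mem hS hz)).smV)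
    fun z hz => dV_of_div hS hL hH hZ hz
  have hV : ∀ y, 0 ≤ D.F y → V (pt (f y) y) = M / ‖y - c‖ ^ (n - 2) := fun y hy =>
    EqK.V_all hS hH hM hy
  have hmem : ∀ x : E n, ‖x‖ = 1 → 0 ≤ D.F (Y C.H x (C.U x)) := fun x hx =>
    (dom_iff hS.dom).2 ⟨x, _, hx, le_rfl, rfl⟩
  have hfS : ∀ x : E n, ‖x‖ = 1 → f (Y C.H x (C.U x)) = - C.U x := by
    intro x hx
    have hU := C.pos x (ne_zero_of_one hx)
    have h6 := hS.bdr (C.U x • x) (smul_ne_zero hU.ne' (ne_zero_of_one hx)) (by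
      rw [KSN.U_smul C (ne_zero_of_one hx) hU, KSN.norm_smul_unit hx hU.le])
    rwa [KSN.Y_eq C hx hU, KSN.U_smul C (ne_zero_of_one hx) hU] at h6
  have hl0 : ∀ x : E n, ‖x‖ = 1 → l 0 (pt (- C.U x) (Y C.H x (C.U x))) = 1 := fun x hx => by
    rw [← hfS x hx]
    exact EqK.l_zero hL (hmem x hx)
  have hP0 : P = 0 := by
    funext j
    refine mom_zero hS hk hAF hZ (κ := M * ((n : ℝ) - 1)) (fun x hx => ?_) hP j
    have h2 := hV _ (hmem x hx)
    have h3 := cone_pos hH hx (le_refl (C.U x))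
    rw [hfS x hx, cone_dist hH hx h3.le] at h2
    rw [h2, hl0 x hx, cone_sg hH hx (le_refl _)]
    have h4 : (k + C.U x) ^ (n - 2) ≠ 0 := pow_ne_zero _ h3.ne'
    field_simp
  obtain ⟨u, hu0, hU, hVS⟩ := h0 hP0
  -- a unit vector
  set x0 : E n := EuclideanSpace.single (⟨0, by omega⟩ : Fin n) (1 : ℝ) with hx0
  have hx1 : ‖x0‖ = 1 := by simp [hx0]
  have hku : 0 < k + u := by
    have := EqK.k_pos hH hx1
    rwa [hU x0 (ne_zero_of_one hx1)] at this
  have hMr : M = (k + u) ^ (n - 2) := by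
    have h1 := hVS x0 hx1
    rw [hl0 x0 hx1, one_pow, mul_one, ← hfS x0 hx1, hV _ (hmem x0 hx1),
      EqK.norm_cone hH hx1 le_rfl, hU x0 (ne_zero_of_one hx1),
      div_eq_one_iff_eq (pow_ne_zero _ hku.ne')] at h1
    exact h1
  have hdV : ∀ y, 0 ≤ D.F y → pd 0 V (pt (f y) y) = 0 ∧ ∀ i : Fin n, pd i.succ V (pt (f y) y) =
      -((n - 2) * (V (pt (f y) y) / ‖y - c‖) * Rig.nn c i y) := by
    obtain ⟨M', hM'⟩ := cone_ode hS hH fun y hy => dV_of_div hS hL hH hZ (mem_OO_of hS hy)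
    exact fun y hy => (hM' y hy).2
  have hind : ∀ y, 0 ≤ D.F y → ∀ i j, indG (ksL l V) f y i j = indG (schw c (k + u)) f y i j ∧
      indK (ksL l V) f y i j = indK (schw c (k + u)) f y i j := fun y hy i j =>
    schw_ind hS.dom hL hH hku (hS.ks y hy).smV (by rw [hV y hy, hMr]) (hdV y hy).1 (hdV y hy).2
      hy i j
  refine ⟨c, k + u, hku, EqK.dom_schw hS hH hU hku, fun y hy i j => ?_, fun y hy i j => ?_⟩
  · rw [hS.met y hy i j]
    exact (hind y hy i j).1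
  · rw [hS.sff y hy i j]
    exact (hind y hy i j).2

end Vale.Agent.P366.KSL
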