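import Vale.Agent.P366.H707.D.EqCore
import Vale.Agent.P366.H222.K.Rest

/-! The equality case under the positivity of the flux density in the rest frame. -/

open MeasureTheory Metric Filter Topology Set
open scoped ContDiff ENNReal

noncomputable section
namespace Vale.Agent.P366.KSD

open Vale.Agent.P366 (pd E flux)
open Vale.Agent.P366.H353.N
open Vale.Agent.P366.Kerr (NullCone Psi pt sp indG indK sgn ksL ksG ein nul IsKS FutTimelike DECatL
  IsGraph IsSliceL HasDEC IsGradient schw IsSchwSlice)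
open Vale.Agent.P366.KSN (Y dts sg OO)
open Vale.Agent.P366.KSL

variable {n : ℕ} {C : NullCone n} {l : Fin (n + 1) → E (n + 1) → ℝ} {V : E (n + 1) → ℝ}
  {f lam : E n → ℝ} {D : Stmt.Exterior n} {x y : E n} {ξ : Fin (n + 1) → ℝ}

/-- Equality in the rest frame: the density vanishes, the null cone is the cone of a point and, if
`P = 0`, the surface is a level set of the time function with `V l₀² = 1` on it. -/
theorem eq_rest [Fact (3 ≤ n)] (hS : IsSliceL C l V f D) (hD : PosAt C l V f f D (aa ξ))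
    (hAF : D.IsAF) (hT : D.Trapped) {m : ℝ} {P : Fin n → ℝ} (hm : D.IsEnergy m)
    (hP : D.IsMomentum P) (h : ∑ i : Fin n, ξ i.succ ^ 2 < ξ 0 ^ 2) (h0 : 0 < ξ 0)
    (hr : ∀ i, ξ 0 * P i = - (ξ i.succ * m))
    (hle : √(m ^ 2 - ∑ i, P i ^ 2) ≤
      1 / 2 * (SI C.toDat.dt / om n) ^ (((n : ℝ) - 2) / ((n : ℝ) - 1))) :
    (∀ y, 0 ≤ D.F y → ∑ b, ξ b * ∑ i, pd i (Zf l V f b i) y = 0) ∧
    (∃ (k : ℝ) (c : E n), ∀ x, x ≠ 0 → C.H x = k * ‖x‖ + ∑ i, c i * x i) ∧
    (P = 0 → ∃ u : ℝ, 0 < u ∧ (∀ x, x ≠ 0 → C.U x = u) ∧ ∀ x : E n, ‖x‖ = 1 →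
      V (pt (- C.U x) (Y C.H x (C.U x))) * l 0 (pt (- C.U x) (Y C.H x (C.U x))) ^ 2 = 1) := by
  obtain ⟨T, hTA, hTb, -⟩ := toTen C.toDat
  obtain ⟨-, hp, -⟩ := frame_ineq hS hD hAF hT hm hP h h0
  obtain ⟨hPm, hrest⟩ := rest_frame h h0 hr hp
  have hN := NN_pos h
  have hle' : Shell.e0 (aa ξ) * m + ∑ i, aa ξ i * P i ≤
      1 / 2 * (SI C.toDat.dt / om n) ^ (((n : ℝ) - 2) / ((n : ℝ) - 1)) := by
    rw [en_aa h h0, ← hrest]
    exact hle
  obtain ⟨h1, h2, h3⟩ := frame_eq hS hD hAF hT hm hP hTA hTb hle'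
  obtain ⟨r, hr', p, hp'⟩ := Shell.bm_round C.toDat T hTA hTb (q := qT T) (fun x _ => rfl)
    (aa ξ) h3
  refine ⟨fun y hy => ?_, Shell.H_round C.toDat hp', fun hP0 => ?_⟩
  · have h4 := h1 y hy
    simp only [xi_aa h h0] at h4
    have h5 : ∑ b, ξ b / NN ξ * ∑ i, pd i (Zf l V f b i) y =
        (∑ b, ξ b * ∑ i, pd i (Zf l V f b i) y) / NN ξ := by
      rw [Finset.sum_div]
      exact Finset.sum_congr rfl fun b _ => by ring
    rw [h5, div_eq_zero_iff] at h4
    exact h4.resolve_right hN.ne'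
  · have hm0 : 0 < m := (Real.sqrt_nonneg _).trans_lt hPm
    have ha : aa ξ = 0 := by
      funext i
      have h6 := hr i
      rw [hP0] at h6
      have h7 : ξ i.succ * m = 0 := by
        simp only [Pi.zero_apply, mul_zero] at h6
        linarith
      have h8 := (mul_eq_zero.1 h7).resolve_right hm0.ne'
      unfold aa
      rw [h8, zero_div]
      rfl
    rw [ha] at hp'
    obtain ⟨u, hu⟩ := Shell.U_round C.toDat hp'
    have hu' : ∀ x, x ≠ 0 → C.U x = u := hu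
    have h3n := Fact.out (p := 3 ≤ n)
    obtain ⟨e, he⟩ : ∃ e : E n, ‖e‖ = 1 :=
      ⟨EuclideanSpace.single (⟨0, by omega⟩ : Fin n) 1, by simp⟩
    have hupos : 0 < u := by
      rw [← hu' e (ne_zero_of_one he)]
      exact C.pos e (ne_zero_of_one he)
    refine ⟨u, hupos, hu', fun x hx => ?_⟩
    have hb : ∀ y : E n, y ≠ 0 → ∀ i, T.b y i = 0 := by
      intro y hy i
      rw [hTb]
      show ∑ j, (C.toDat.M y)⁻¹ i j * (‖y‖ * pd j C.U y) = 0
      have e1 : ∀ j, pd j C.U y = 0 := fun j => by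
        rw [pd_congr' (f := fun _ => u) (fun z hz => hu' z hz) hy, Vale.Agent.P366.pd_const]
      simp only [e1, mul_zero, Finset.sum_const_zero]
    have hx0 := ne_zero_of_one hx
    have h5 := h2 x hx
    have e1 : ∀ i j, pd i (fun y => T.b y j) x = 0 := fun i j => by
      rw [pd_congr' (f := fun _ => 0) (fun z hz => hb z hz j) hx0, Vale.Agent.P366.pd_const]
    have e2 : T.b x = 0 := funext fun i => hb x hx0 i
    have hq : qT T x = sg C.H (C.U x) x := by
      unfold qT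
      simp only [e1, e2]
      have e3 : H353.N.tr (T.A x) = sg C.H (C.U x) x := by
        rw [hTA]
        exact H353.N.X3.tr_A C.toDat hx
      rw [e3]
      simp [qf]
    rw [hq] at h5
    have h6 := KSN.sg_pos C hx (le_refl (C.U x))
    unfold wS at h5
    have h7 : (V (pt (- C.U x) (Y C.H x (C.U x))) *
        l 0 (pt (- C.U x) (Y C.H x (C.U x))) ^ 2 - 1) * sg C.H (C.U x) x = 0 := by linarith
    rcases mul_eq_zero.1 h7 with h | h
    · linarith
    · exact absurd h h6.ne'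

/-- The equality case in the rest frame, if the vanishing of the density in the rest frame implies
that the divergences of all flux fields vanish. -/
theorem schwarz_pos [Fact (3 ≤ n)] (hS : IsSliceL C l V f D) (hL : IsGradient C lam l f D)
    (hD : PosAt C l V f f D (aa ξ)) (hAF : D.IsAF) (hT : D.Trapped) {m : ℝ} {P : Fin n → ℝ}
    (hm : D.IsEnergy m) (hP : D.IsMomentum P) (h : ∑ i : Fin n, ξ i.succ ^ 2 < ξ 0 ^ 2)
    (h0 : 0 < ξ 0) (hr : ∀ i, ξ 0 * P i = - (ξ i.succ * m))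
    (hle : √(m ^ 2 - ∑ i, P i ^ 2) ≤
      1 / 2 * (SI C.toDat.dt / om n) ^ (((n : ℝ) - 2) / ((n : ℝ) - 1)))
    (hZ : ∀ y, 0 < D.F y → ∑ b, ξ b * ∑ i, pd i (Zf l V f b i) y = 0 →
      ∀ b, ∑ i, pd i (Zf l V f b i) y = 0) :
    ∃ c r₀, IsSchwSlice c r₀ f D := by
  obtain ⟨h1, ⟨k, c, hH⟩, h3⟩ := eq_rest hS hD hAF hT hm hP h h0 hr hle
  refine schwarz_of hS hL hAF hP hH (fun b y hy => ?_) h3
  exact ext_bdr (A := fun y => ∑ i, pd i (Zf l V f b i) y) (B := fun _ => 0) hS.dom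
    (fun z hz => tendsto_finsetSum _ fun i _ =>
      (KSN.X5.cd_pd (Z_smooth hS.toIsGraph hz b i) i).continuousAt)
    (fun _ _ => continuousAt_const) (fun z hz => hZ z hz (h1 z hz.le) b) hy

end Vale.Agent.P366.KSD
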