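import Vale.Agent.P366.H707.D.EqPos
import Vale.Agent.P366.H208.M.Strong

/-! The equality case under the mixed energy condition of the data. -/

open MeasureTheory Metric Filter Topology Set
open scoped ContDiff ENNReal

noncomputable section
namespace Vale.Agent.P366.KSS

open Vale.Agent.P366 (pd E flux)
open Vale.Agent.P366.H353.N
open Vale.Agent.P366.Kerr (NullCone Psi pt sp indG indK sgn ksL ksG ein nul IsKS FutTimelike DECatL
  IsGraph IsSliceL HasDEC MixDEC IsFut IsGradient schw IsSchwSlice SharpAt)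
open Vale.Agent.P366.KSN (Y dts sg OO)
open Vale.Agent.P366.KSL
open Vale.Agent.P366.KSD

variable {n : ℕ} {C : NullCone n} {l : Fin (n + 1) → E (n + 1) → ℝ} {V : E (n + 1) → ℝ}
  {f lam : E n → ℝ} {D : Stmt.Exterior n} {x y : E n} {ξ : Fin (n + 1) → ℝ}

theorem near_pos (hy : 0 < D.F y) : ∀ᶠ z in 𝓝 y, 0 ≤ D.F z := by
  have h : ContinuousAt D.F y := D.dom.1.continuous.continuousAt
  filter_upwards [h.eventually (lt_mem_nhds hy)] with z hz using hz.le

/-- The geodesic condition. -/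
def Geo (l : Fin (n + 1) → E (n + 1) → ℝ) (V : E (n + 1) → ℝ) (f : E n → ℝ)
    (D : Stmt.Exterior n) : Prop :=
  ∀ y, 0 ≤ D.F y → V (pt (f y) y) ≠ 0 → ∃ κ : ℝ, ∀ a,
    ∑ b, sgn b * l b (pt (f y) y) * Stmt.pd b (l a) (pt (f y) y) = κ * l a (pt (f y) y)

/-- The alternative at the interior points. -/
def Alt (l : Fin (n + 1) → E (n + 1) → ℝ) (V : E (n + 1) → ℝ) (f : E n → ℝ)
    (ξ : Fin (n + 1) → ℝ) (D : Stmt.Exterior n) : Prop :=
  ∀ y, 0 < D.F y →
    V (pt (f y) y) * (∑ a, l a (pt (f y) y) * ξ a) ^ 2 < ξ 0 ^ 2 - ∑ i : Fin n, ξ i.succ ^ 2 ∨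
    (SharpAt l f D y ∧ ∑ i, Stmt.pd i f y ^ 2 ≤ 1)

theorem form_self (h : V (pt (f y) y) * (∑ a, l a (pt (f y) y) * ξ a) ^ 2 <
    ξ 0 ^ 2 - ∑ i : Fin n, ξ i.succ ^ 2) :
    ∑ a, ∑ b, ksL l V (pt (f y) y) a b * ξ a * ξ b < 0 := by
  rw [form_ksL]
  have e : ∑ i : Fin n, ξ i.succ * ξ i.succ = ∑ i : Fin n, ξ i.succ ^ 2 :=
    Finset.sum_congr rfl fun i _ => (sq _).symm
  rw [e]
  linarith

/-- positivity at interior points -/
theorem pos_int [Fact (3 ≤ n)] (hS : IsSliceL C l V f D) (hξ : IsFut ξ)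
    (hdec : D.DEC) (hgeo : Geo l V f D) (halt : Alt l V f ξ D) (hy : 0 < D.F y) :
    0 ≤ -∑ b, ξ b * ∑ i, pd i (Zf l V f b i) y := by
  have hev := near_pos hy
  rw [dens_eq hS hgeo hev]
  rcases halt y hy with h | ⟨h, h'⟩
  · exact data_pos hS hev (hdec y hy.le) (form_self h).le (l_fut (hS.ks y hy.le) hξ)
  · exact (strong_main hS hξ hev (hdec y hy.le) h h').1

/-- If the density vanishes in the frame of `ξ` at an interior point, then the divergences of all
flux fields vanish there. -/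
theorem div_zero [Fact (3 ≤ n)] (hS : IsSliceL C l V f D) (hξ : IsFut ξ)
    (hdec : D.DEC) (hgeo : Geo l V f D) (halt : Alt l V f ξ D) (hy : 0 < D.F y)
    (h0 : ∑ b, ξ b * ∑ i, pd i (Zf l V f b i) y = 0) (b : Fin (n + 1)) :
    ∑ i, pd i (Zf l V f b i) y = 0 := by
  have hev := near_pos hy
  have hd := dens_eq hS hgeo hev
  have hd0 : ∑ d, ∑ b, ein (ksL l V) d b (pt (f y) y) * (-Nn l V f y d) * ξ b = 0 := by
    rw [← hd ξ, h0, neg_zero]
  have h1 : ∀ b, ∑ d, ein (ksL l V) d b (pt (f y) y) * (-Nn l V f y d) = 0 := by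
    rcases halt y hy with h | ⟨h, h'⟩
    · exact data_zero hS hev (hdec y hy.le) (form_self h) (l_fut (hS.ks y hy.le) hξ) hd0
    · exact (strong_main hS hξ hev (hdec y hy.le) h h').2 hd0
  have h2 := hd (Pi.single b 1)
  rw [Finset.sum_comm] at h2
  have e1 : ∀ b', ∑ d, ein (ksL l V) d b' (pt (f y) y) * (-Nn l V f y d) *
      (Pi.single b 1 : Fin (n + 1) → ℝ) b' = 0 := fun b' => by
    rw [← Finset.sum_mul, h1 b', zero_mul]
  simp only [e1, Finset.sum_const_zero] at h2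
  have e2 : ∑ b', (Pi.single b 1 : Fin (n + 1) → ℝ) b' * ∑ i, pd i (Zf l V f b' i) y =
      ∑ i, pd i (Zf l V f b i) y := by
    simp [Pi.single_apply]
  rw [e2] at h2
  linarith

/-- positivity -/
theorem pos_all [Fact (3 ≤ n)] (hS : IsSliceL C l V f D) (hξ : IsFut ξ)
    (hdec : D.DEC) (hgeo : Geo l V f D) (halt : Alt l V f ξ D) (hy : 0 ≤ D.F y) :
    0 ≤ -∑ b, ξ b * ∑ i, pd i (Zf l V f b i) y := by
  refine ext_cl hS.dom (g := fun y => -∑ b, ξ b * ∑ i, pd i (Zf l V f b i) y) (fun z hz => ?_)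
    (fun z hz => pos_int hS hξ hdec hgeo halt (F_int hz)) hy
  refine ContinuousAt.neg (tendsto_finsetSum _ fun b _ => ContinuousAt.mul continuousAt_const
    (tendsto_finsetSum _ fun i _ => ?_))
  exact (KSN.X5.cd_pd (Z_smooth hS.toIsGraph hz b i) i).continuousAt

/-- the energy condition of the data gives the positivity in the frame of `ξ` -/
theorem posAt_of_data [Fact (3 ≤ n)] (hS : IsSliceL C l V f D) (hξ : IsFut ξ)
    (hdec : D.DEC) (hgeo : Geo l V f D) (halt : Alt l V f ξ D) :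
    PosAt C l V f f D (aa ξ) where
  toIsGraph := hS.toIsGraph
  far := ⟨0, fun _ _ => rfl⟩
  geob := fun x hx => by
    have hy : 0 ≤ D.F (Y C.H x (C.U x)) := mem_Y hS.dom hx le_rfl
    by_cases hV : V (pt (f (Y C.H x (C.U x))) (Y C.H x (C.U x))) = 0
    · exact Or.inl hV
    · exact Or.inr (hgeo _ hy hV)
  pos := fun y hy => by
    rw [sum_pd_Fa hS.toIsGraph hy]
    have h1 := pos_all hS hξ hdec hgeo halt hy
    have hN := NN_pos hξ.2
    have e : -∑ b, xi (aa ξ) b * ∑ i, pd i (Zf l V f b i) y =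
        (-∑ b, ξ b * ∑ i, pd i (Zf l V f b i) y) / NN ξ := by
      rw [neg_div, Finset.sum_div]
      congr 1
      exact Finset.sum_congr rfl fun b _ => by rw [xi_aa hξ.2 hξ.1]; ring
    rw [e]
    exact div_nonneg h1 hN.le

/-- Equality in the Penrose inequality: a slice of the Schwarzschild-Tangherlini spacetime. -/
theorem schwarz_data_le [Fact (3 ≤ n)] (hS : IsSliceL C l V f D) (hL : IsGradient C lam l f D)
    (hξ : IsFut ξ) (hdec : D.DEC) (hgeo : Geo l V f D) (halt : Alt l V f ξ D) (hAF : D.IsAF)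
    (hT : D.Trapped) {m : ℝ} {P : Fin n → ℝ} (hm : D.IsEnergy m) (hP : D.IsMomentum P)
    (hr : ∀ i, ξ 0 * P i = - (ξ i.succ * m))
    (hle : √(m ^ 2 - ∑ i, P i ^ 2) ≤
      1 / 2 * (SI C.toDat.dt / om n) ^ (((n : ℝ) - 2) / ((n : ℝ) - 1))) :
    ∃ c r₀, IsSchwSlice c r₀ f D :=
  schwarz_pos hS hL (posAt_of_data hS hξ hdec hgeo halt) hAF hT hm hP hξ.2 hξ.1 hr hle
    fun _ hy h0 b => div_zero hS hξ hdec hgeo halt hy h0 b

end Vale.Agent.P366.KSS
end
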